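import Vale.Agent.P281.H167.ML.Iface
import Vale.Agent.P281.H342.MFS.Nn

/-! P281, theorem ML, row G: the norm of a section given on a dense set. -/

open scoped Manifold ContDiff Topology ComplexOrder Matrix
open Set Filter MeasureTheory Vale.Agent.P281 Vale.Agent.P272.K Vale.Agent.P299
open Vale.Agent.P281.H716.IsSys
open Vale.Agent.P272.K.AMP (hess)
open Vale.Agent.P272.K.INT (IsClosedForm)

set_option linter.all false

noncomputable section

namespace Vale.Agent.P281.H342.ML

open Vale.Agent.P281.H949.GM (holAt_chart holAt_ev tsymm ev_of_symm)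

section

variable {n : ℕ} {X : Type} [TopologicalSpace X] [ChartedSpace (Cm n) X]

/-- two functions continuous at `y` which agree on a dense set near `y` -/
lemma eq_of_dense {S : Set X} (hS : Dense S) {u v : X → ℝ} {y : X} (hu : ContinuousAt u y)
    (hv : ContinuousAt v y) (h : ∀ᶠ z in 𝓝 y, z ∈ S → u z = v z) : u y = v y := by
  by_contra hne
  have h1 : ∀ᶠ z in 𝓝 y, u z - v z ≠ 0 := (hu.sub hv).eventually_ne (sub_ne_zero.2 hne)
  have h2 : ∃ᶠ z in 𝓝 y, z ∈ S := mem_closure_iff_frequently.1 (hS y)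
  obtain ⟨z, hz, h3, h4⟩ := (h2.and_eventually (h1.and h)).exists
  exact h3 (sub_eq_zero.2 (h4 hz))

/-- a function which is smooth at `x` in the charts is continuous near `x` -/
lemma cont_near {ψ : X → ℝ} {x : X}
    (hψ : ∀ e : Chart n X, At e x → ContDiffAt ℝ ∞ (fun z => ψ (e.symm z)) (e x)) :
    ∀ᶠ y in 𝓝 x, ContinuousAt ψ y := by
  set e : Chart n X := chartAt (Cm n) x with he
  have hex : At e x := ⟨chart_mem_atlas _ _, mem_chart_source _ _⟩
  have h1 : ∀ᶠ z in 𝓝 (e x), ContDiffAt ℝ 2 (fun z => ψ (e.symm z)) z :=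
    ((hψ e hex).of_le two_le_infty).eventually (by simp)
  filter_upwards [(e.continuousAt hex.2).eventually h1, e.open_source.mem_nhds hex.2] with y h2 h3
  have h4 : ContinuousAt (fun w => ψ (e.symm (e w))) y :=
    ContinuousAt.comp (f := e) (g := fun z => ψ (e.symm z)) h2.continuousAt (e.continuousAt h3)
  refine h4.congr ?_
  filter_upwards [e.open_source.mem_nhds h3] with w hw
  rw [e.left_inv hw]

end

/-- **Row G**. -/
theorem normPart : H167.ML.NormPart := by
  intro n X _ _ _ _ _ _ χ hχ m hm Λ A hΛ hA hA0 S hS ρ hloc hex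
  choose a ψ ha hψ hev using hloc
  set N : X → X → ℝ := fun x y => ‖a x y‖ ^ 2 * Real.exp (-m * ψ x y) with hN
  have hcont : ∀ x, ∀ᶠ y in 𝓝 x, ContinuousAt (N x) y := by
    intro x
    filter_upwards [holAt_ev (ha x), cont_near (hψ x)] with y h1 h2
    exact ((h1.continuousAt.norm).pow 2).mul
      (Real.continuous_exp.continuousAt.comp (continuousAt_const.mul h2))
  have hnear : ∀ x, ∀ᶠ y in 𝓝 x, N y y = N x y := by
    intro x
    filter_upwards [hcont x, eventually_eventually_nhds.2 (hev x)] with y h1 h2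
    refine eq_of_dense hS (hcont y).self_of_nhds h1 ?_
    filter_upwards [h2, hev y] with z h3 h4 hz
    show ‖a y z‖ ^ 2 * Real.exp (-m * ψ y z) = ‖a x z‖ ^ 2 * Real.exp (-m * ψ x z)
    rw [← h3.2 hz, ← h4.2 hz]
  have hsm : SmoothFn (n := n) (fun y => N y y) := by
    intro e x he
    have h1 : ContDiffAt ℂ ω (fun z => a x (e.symm z)) (e x) := holAt_chart he (ha x)
    have h2 := hψ x e he
    have h3 : ContDiffAt ℝ ∞ (fun z => a x (e.symm z)) (e x) :=
      (h1.restrict_scalars ℝ).of_le le_top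
    have h4 : ContDiffAt ℝ ∞ (fun z => N x (e.symm z)) (e x) :=
      (h3.norm_sq ℝ).mul (Real.contDiff_exp.contDiffAt.comp _ (contDiffAt_const.mul h2))
    refine h4.congr_of_eventuallyEq ?_
    filter_upwards [(tsymm he).eventually (hnear x)] with z hz using hz
  refine H342.MFS.nonnegPartM hχ hΛ hm hsm (fun x => ?_) ?_ hA hA0
  · set e : Chart n X := chartAt (Cm n) x with he
    have hex : At e x := ⟨chart_mem_atlas _ _, mem_chart_source _ _⟩
    refine ⟨e, fun z => (m : ℝ) * ψ x (e.symm z), fun z => a x (e.symm z), hex,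
      contDiffAt_const.mul (hψ x e hex), (holAt_chart hex (ha x)).analyticAt, ?_, ?_⟩
    · rw [cHess_const_mul _ ((hψ x e hex).of_le two_le_infty)]
      rw [(hev x).self_of_nhds.1 e hex]
      push_cast
      rfl
    · filter_upwards [(tsymm hex).eventually (hnear x)] with z hz
      show N (e.symm z) (e.symm z) = _
      rw [hz]
      show ‖a x (e.symm z)‖ ^ 2 * Real.exp (-m * ψ x (e.symm z)) = _
      rw [neg_mul]
  · obtain ⟨x, hxS, hx⟩ := hex
    refine ⟨x, ?_⟩
    show 0 < ‖a x x‖ ^ 2 * Real.exp (-m * ψ x x)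
    have h1 := (hev x).self_of_nhds.2 hxS
    refine lt_of_le_of_ne (by positivity) fun h2 => hx ?_
    rw [h1, ← h2]

end Vale.Agent.P281.H342.ML
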